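import Vale.Agent.P281.H68.UL.Mix1

/-! P281, project T-UL, block MX (helper68): **MX (i)**, the mixed family: `logs`, `bound`. -/

open Set Filter Metric Vale.Agent.P281 Vale.Agent.P281.H713
open Vale.Agent.P281.MF Vale.Agent.P281.ISO Vale.Agent.P281.ELL Vale.Agent.P281.H713.TZ
open Vale.Agent.P281.H64 Vale.Agent.P281.H511.UL
open Vale.Agent.P281.H64.TU (Tame KTame HasFormsT RankAt RelFormT)
open Vale.Agent.P281.H303.UD (IsPolz)
open Vale.Agent.P281.H969.TL (IsUnitAt IsUnitOn IsUnitF)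

open scoped Topology ContDiff Manifold

noncomputable section

set_option linter.unusedSectionVars false

namespace Vale.Agent.P281.H68.UL

variable {p d n q : ℕ} {X Y : Type} [TopologicalSpace X] [T2Space X] [ChartedSpace (Cm (p + d)) X]
    [IsManifold 𝓘(ℂ, Cm (p + d)) ω X] [TopologicalSpace Y] [T2Space Y] [ChartedSpace (Cm p) Y]
    [IsManifold 𝓘(ℂ, Cm p) ω Y]
    {V : Type} [NormedAddCommGroup V] [InnerProductSpace ℂ V] [FiniteDimensional ℂ V]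
    {T : Tame (Cm d) X} {f : X → Y} {S : Set Y}
    {Q : (Fin n → ℝ) → (Fin n → ℝ) → ℝ} {ι κ : Type} {U : ι → Set Y}
    {π : ι → Y → ((Fin n → ℝ) ≃L[ℝ] V)} {L : ι → X → (X → V) → Prop}
    {𝒟 : Finset (Set X)} {a : Fin q → Set X → ℤ} {W : κ → Set Y} {u : κ → Fin q → X → ℂ}

/-- `logs` -/
theorem lx_logs (hf : Continuous f) (hA : IsAlb0 (Cm (p + d)) (Cm p) d T f S Q U π L)
    (hcl : ∀ D ∈ 𝒟, IsClosed D) (hu : IsUF (Cm (p + d)) f S 𝒟 a W u) (k : ι × κ) (x : X)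
    (hx : f x ∈ UX U W k) (e : Set X → X → ℂ) (he : ∀ D ∈ 𝒟, J.IsLocalEq (Cm (p + d)) D (e D) x) :
    ∃ (γ : X → Vx V q) (c : Set X → Vx V q), ContMDiffAt 𝓘(ℂ, Cm (p + d)) 𝓘(ℂ, Vx V q) ω γ x ∧
      ∀ᶠ z in 𝓝 x, (∀ D ∈ 𝒟, z ∉ D) → ∃ (b : X → Vx V q) (ℓ : Set X → X → ℂ),
        LX (Cm (p + d)) f 𝒟 W L u k z b ∧
        (∀ D ∈ 𝒟, ContMDiffAt 𝓘(ℂ, Cm (p + d)) 𝓘(ℂ, ℂ) ω (ℓ D) z ∧
          ∀ᶠ t in 𝓝 z, Complex.exp (ℓ D t) = e D t) ∧
        ∀ᶠ t in 𝓝 z, f t = f z → b t = γ t + ∑ D ∈ 𝒟, ℓ D t • c D := by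
  obtain ⟨β, hβ⟩ := hA.lift k.1 x hx.1
  have h1 := fun j => hu.unit k.2 j x hx.2 e he
  choose h hhol hne heq using h1
  have h2 := fun j => exists_log_at' (hhol j) (hne j)
  choose g hg hge using h2
  refine ⟨fun z => mkx (β z) (WithLp.toLp 2 fun j => g j z),
    fun D => mkx 0 (WithLp.toLp 2 fun j => (a j D : ℂ)), contMDiffAt_mkx (hA.liftHol _ _ _ hβ) hg, ?_⟩
  have e1 : ∀ᶠ z in 𝓝 x, f z ∈ W k.2 := hf.continuousAt.preimage_mem_nhds
    ((hu.isOpen _).mem_nhds hx.2)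
  have e2 : ∀ᶠ z in 𝓝 x, ∀ j, ContMDiffAt 𝓘(ℂ, Cm (p + d)) 𝓘(ℂ, ℂ) ω (g j) z :=
    Filter.eventually_all.2 fun j => HolV.eventually (hg j)
  have e3 : ∀ᶠ z in 𝓝 x, ∀ j, ∀ᶠ t in 𝓝 z, Complex.exp (g j t) = h j t :=
    Filter.eventually_all.2 fun j => (hge j).eventually_nhds
  have e4 : ∀ᶠ z in 𝓝 x, ∀ j, ∀ᶠ t in 𝓝 z, (∀ D ∈ 𝒟, t ∉ D) →
      u k.2 j t = h j t * ∏ D ∈ 𝒟, e D t ^ a j D :=
    Filter.eventually_all.2 fun j => (heq j).eventually_nhds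
  have e5 := H68.TL.localEqs_nhds he
  filter_upwards [e1, e2, e3, e4, e5, hA.near _ _ _ hβ] with z z1 z2 z3 z4 z5 z6 hzD
  have h3 : ∀ D, ∃ ℓ : X → ℂ, D ∈ 𝒟 → ContMDiffAt 𝓘(ℂ, Cm (p + d)) 𝓘(ℂ, ℂ) ω ℓ z ∧
      ∀ᶠ t in 𝓝 z, Complex.exp (ℓ t) = e D t := by
    intro D
    by_cases hD : D ∈ 𝒟
    · obtain ⟨ℓ, hℓ⟩ := exists_log_at' (z5 D hD).2.1 fun h0 => hzD D hD ((z5 D hD).2.2.2 h0)
      exact ⟨ℓ, fun _ => hℓ⟩
    · exact ⟨0, fun hh => absurd hh hD⟩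
  choose ℓ hℓ using h3
  refine ⟨fun t => mkx (β t) (WithLp.toLp 2 fun j => g j t + ∑ D ∈ 𝒟, (a j D : ℂ) * ℓ D t), ℓ,
    ⟨z1, hzD, β, fun j t => g j t + ∑ D ∈ 𝒟, (a j D : ℂ) * ℓ D t, z6, fun j => ⟨?_, ?_⟩,
      fun t => rfl⟩, hℓ, ?_⟩
  · refine ContMDiffAt.add (z2 j) (ContMDiffAt.sum fun D hD => ?_)
    exact contMDiffAt_const.mul (hℓ D hD).1
  · filter_upwards [z3 j, z4 j, offD_open hcl hzD,
      (Filter.eventually_all_finset 𝒟).2 fun D hD => (hℓ D hD).2] with t t1 t2 t3 t4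
    rw [t2 t3, Complex.exp_add, t1, Complex.exp_sum]
    congr 1
    refine Finset.prod_congr rfl fun D hD => ?_
    rw [← t4 D hD, Complex.exp_int_mul]
  · refine Eventually.of_forall fun t _ => ?_
    have k1 : ∀ D, ℓ D t • (mkx (0 : V) (WithLp.toLp 2 fun j => (a j D : ℂ)) : Vx V q) =
        mkL V q (0, fun j => (a j D : ℂ) * ℓ D t) := by
      intro D
      have : (mkx (0 : V) (WithLp.toLp 2 fun j => (a j D : ℂ)) : Vx V q) =
        mkL V q (0, fun j => (a j D : ℂ)) := rfl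
      rw [this, ← map_smul]
      congr 1
      refine Prod.ext (smul_zero _) ?_
      funext j
      exact mul_comm _ _
    have k2 : (mkx (β t) (WithLp.toLp 2 fun j => g j t) : Vx V q) = mkL V q (β t, fun j => g j t) := rfl
    have k3 : (mkx (β t) (WithLp.toLp 2 fun j => g j t + ∑ D ∈ 𝒟, (a j D : ℂ) * ℓ D t) : Vx V q) =
      mkL V q (β t, fun j => g j t + ∑ D ∈ 𝒟, (a j D : ℂ) * ℓ D t) := rfl
    show (mkx (β t) (WithLp.toLp 2 fun j => g j t + ∑ D ∈ 𝒟, (a j D : ℂ) * ℓ D t) : Vx V q) =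
      mkx (β t) (WithLp.toLp 2 fun j => g j t) +
        ∑ D ∈ 𝒟, ℓ D t • (mkx (0 : V) (WithLp.toLp 2 fun j => (a j D : ℂ)) : Vx V q)
    rw [k2, k3, Finset.sum_congr rfl fun D _ => k1 D, ← map_sum, ← map_add]
    congr 1
    refine Prod.ext ?_ ?_
    · rw [Prod.fst_add, Prod.fst_sum]
      simp
    · rw [Prod.snd_add, Prod.snd_sum]
      funext j
      rw [Pi.add_apply, Finset.sum_apply]

theorem norm_mkx_le {q : ℕ} (v : V) (c : EuclideanSpace ℂ (Fin q)) : ‖mkx v c‖ ≤ ‖v‖ + ∑ j, ‖c j‖ := by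
  have h1 : (mkx v c : Vx V q) = mkx v 0 + mkx 0 c := by
    show _ = WithLp.toLp 2 ((v, 0) + (0, c))
    rw [Prod.mk_add_mk, add_zero, zero_add]
    rfl
  have h2 : ‖(mkx v (0 : EuclideanSpace ℂ (Fin q)) : Vx V q)‖ = ‖v‖ := by
    rw [WithLp.prod_norm_eq_of_L2]
    show √(‖v‖ ^ 2 + ‖(0 : EuclideanSpace ℂ (Fin q))‖ ^ 2) = ‖v‖
    rw [norm_zero]
    simp
  have h3 : ‖(mkx (0 : V) c : Vx V q)‖ = ‖c‖ := by
    rw [WithLp.prod_norm_eq_of_L2]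
    show √(‖(0 : V)‖ ^ 2 + ‖c‖ ^ 2) = ‖c‖
    rw [norm_zero]
    simp
  have h4 : ‖c‖ ≤ ∑ j, ‖c j‖ := by
    rw [EuclideanSpace.norm_eq]
    refine Real.sqrt_le_iff.2 ⟨Finset.sum_nonneg fun j _ => norm_nonneg _, ?_⟩
    exact Finset.sum_sq_le_sq_sum_of_nonneg fun j _ => norm_nonneg _
  calc ‖mkx v c‖ ≤ ‖(mkx v (0 : EuclideanSpace ℂ (Fin q)) : Vx V q)‖ + ‖(mkx (0 : V) c : Vx V q)‖ := by
        rw [h1]; exact norm_add_le _ _
    _ ≤ ‖v‖ + ∑ j, ‖c j‖ := by rw [h2, h3]; gcongr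

/-- `bound` -/
theorem lx_bound (hT : TameMono T)
    (hA : IsAlb0 (Cm (p + d)) (Cm p) d T f S Q U π L)
    (hcl : ∀ D ∈ 𝒟, IsClosed D) (hu : IsUF (Cm (p + d)) f S 𝒟 a W u)
    (hB : ∀ j, ∀ ρ K : ℝ, 0 < ρ → 0 < K → ∃ B : ℝ, ∀ (y : Y) (u : X → ℂ), y ∉ S →
      IsUnitAt (Cm (p + d)) f 𝒟 (a j) y u → ∀ (s : Cm d → X) (v₀ : Cm d),
      IsPolydisc (Cm (p + d)) f s v₀ ρ → T K s v₀ ρ → f (s v₀) = y →
      (∀ v ∈ ball v₀ ρ, ∀ D ∈ 𝒟, s v ∉ D) →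
      ‖fderiv ℂ (fun v => u (s v)) v₀‖ ≤ B * ‖u (s v₀)‖)
    {Q' : (Fin (n + 2 * q) → ℝ) → (Fin (n + 2 * q) → ℝ) → ℝ}
    {ext : ((Fin n → ℝ) ≃L[ℝ] V) → ((Fin (n + 2 * q) → ℝ) ≃L[ℝ] Vx V q)}
    {extG : (V ≃L[ℂ] V) → (Vx V q ≃L[ℂ] Vx V q)} (hG : ∀ G, IsProdG G (extG G))
    (hnorm : ∀ P G G', IsPolz Q P G → IsPolz Q' (ext P) G' → ∀ v, ‖G' v‖ = ‖extG G v‖)
    (r K : ℝ) (hr : 0 < r) (hK : 0 < K) : ∃ A : ℝ, ∀ (k : ι × κ) (s : Cm d → X)
      (v₀ : Cm d), IsPolydisc (Cm (p + d)) f s v₀ r → T K s v₀ r → f (s v₀) ∈ UX U W k →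
      (∀ v ∈ ball v₀ r, ∀ D ∈ 𝒟, s v ∉ D) → ∃ h : Cm d → Vx V q,
      DifferentiableOn ℂ h (ball v₀ r) ∧
      (∃ b : X → Vx V q, LX (Cm (p + d)) f 𝒟 W L u k (s v₀) b ∧ ∀ᶠ v in 𝓝 v₀, b (s v) = h v) ∧
      ∀ G : Vx V q ≃L[ℂ] Vx V q, IsPolz Q' (ext (π k.1 (f (s v₀)))) G →
        ∀ v ∈ ball v₀ (r / 2), ‖fderiv ℂ (fun u => G (h u)) v‖ ≤ A := by
  obtain ⟨A₀, hA₀⟩ := hA.bound r K hr hK
  choose B hB' using fun j => hB j (r / 2) K (half_pos hr) hK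
  refine ⟨A₀ + ∑ j, B j, fun k s v₀ hs hTs hfs hsD => ?_⟩
  obtain ⟨h, hd, ⟨β, hβ, hβh⟩, hGh⟩ := hA₀ k.1 s v₀ hs hTs hfs.1
  have hv₀ : v₀ ∈ ball v₀ r := mem_ball_self hr
  have hfW : ∀ v ∈ ball v₀ r, f (s v) ∈ W k.2 := fun v hv => by rw [hs.2.2 v hv]; exact hfs.2
  have han : ∀ j, AnalyticOnNhd ℂ (fun v => u k.2 j (s v)) (ball v₀ r) := by
    intro j v hv
    have h1 : ContMDiffAt 𝓘(ℂ, Cm d) 𝓘(ℂ, ℂ) ω (fun v => u k.2 j (s v)) v :=
      ContMDiffAt.comp (g := u k.2 j) v (hu.hol hcl (hfW v hv) (hsD v hv) j).1 (hs.1 v hv)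
    exact h1.contDiffAt.analyticAt
  have hne : ∀ j, ∀ v ∈ ball v₀ r, u k.2 j (s v) ≠ 0 := fun j v hv =>
    (hu.hol hcl (hfW v hv) (hsD v hv) j).2
  choose l hld hle using fun j => H165.L.exists_log_ball hr (han j) (hne j)
  -- the local logarithms on `X`
  have h1 := fun j => exists_log_at (hu.hol hcl hfs.2 (hsD v₀ hv₀) j).1
    (hu.hol hcl hfs.2 (hsD v₀ hv₀) j).2 (hle j v₀ hv₀)
  choose ℓ hℓ1 hℓ2 hℓ3 using h1
  have hsc : ContinuousAt s v₀ := (hs.1 v₀ hv₀).continuousAt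
  have h2 : ∀ j, ∀ᶠ v in 𝓝 v₀, ℓ j (s v) = l j v := by
    intro j
    have k1 : Tendsto (fun v => ℓ j (s v)) (𝓝 v₀) (𝓝 (l j v₀)) := by
      have := ((hℓ1 j).continuousAt.comp hsc).tendsto
      rw [Function.comp_apply, hℓ2 j] at this
      exact this
    have k2 : Tendsto (l j) (𝓝 v₀) (𝓝 (l j v₀)) :=
      ((hld j).differentiableAt (isOpen_ball.mem_nhds hv₀)).continuousAt
    have k3 : ∀ᶠ v in 𝓝 v₀, Complex.exp (ℓ j (s v) - l j v) = Complex.exp (l j v₀ - l j v₀) := by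
      filter_upwards [hsc.eventually (hℓ3 j), isOpen_ball.mem_nhds hv₀] with v v1 v2
      rw [Complex.exp_sub, v1, hle j v v2, div_self (hne j v v2), sub_self, Complex.exp_zero]
    filter_upwards [log_sub k1 k2 k3] with v hv
    rw [sub_self] at hv
    exact sub_eq_zero.1 hv
  have hmk : ∀ v, (mkx (h v) (WithLp.toLp 2 fun j => l j v) : Vx V q) = mkL V q (h v, fun j => l j v) :=
    fun v => rfl
  have hpair : ∀ v ∈ ball v₀ r, HasFDerivAt (fun v => (h v, fun j => l j v))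
      ((fderiv ℂ h v).prod (ContinuousLinearMap.pi fun j => fderiv ℂ (l j) v)) v := by
    intro v hv
    have hb := isOpen_ball.mem_nhds hv
    exact (hd.differentiableAt hb).hasFDerivAt.prodMk
      (hasFDerivAt_pi.2 fun j => ((hld j).differentiableAt hb).hasFDerivAt)
  refine ⟨fun v => mkx (h v) (WithLp.toLp 2 fun j => l j v), ?_, ?_, ?_⟩
  · intro v hv
    exact ((mkL V q).hasFDerivAt.comp v (hpair v hv)).differentiableAt.differentiableWithinAt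
  · refine ⟨fun z => mkx (β z) (WithLp.toLp 2 fun j => ℓ j z), ⟨hfs.2, hsD v₀ hv₀, β, ℓ, hβ,
      fun j => ⟨hℓ1 j, hℓ3 j⟩, fun z => rfl⟩, ?_⟩
    filter_upwards [hβh, Filter.eventually_all.2 h2] with v v1 v2
    show mkx (β (s v)) _ = mkx (h v) _
    rw [v1]
    congr 2
    funext j
    exact v2 j
  · intro G hGp v hv
    have hvr : v ∈ ball v₀ r := ball_subset_ball (by linarith) hv
    obtain ⟨G₀, hG₀⟩ := hA.polarized k.1 _ hfs.1
    have hG₀' : IsPolz Q (π k.1 (f (s v₀))) G₀ := hG₀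
    have k1 := hGh G₀ hG₀' v hv
    -- the derivative of the logarithms
    have k2 : ∀ j, ‖fderiv ℂ (l j) v‖ ≤ B j := by
      intro j
      have hsub : ball v (r / 2) ⊆ ball v₀ r := by
        intro t ht
        have := dist_triangle t v v₀
        rw [mem_ball] at ht hv ⊢
        linarith
      have hpoly : IsPolydisc (Cm (p + d)) f s v (r / 2) :=
        ⟨fun t ht => hs.1 t (hsub ht), hs.2.1.mono hsub, fun t ht => by
          rw [hs.2.2 t (hsub ht), hs.2.2 v hvr]⟩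
      have m1 := hB' j (f (s v)) (u k.2 j) (by rw [hs.2.2 v hvr]; exact (hu.cover _).2 ⟨_, hfs.2⟩)
        (H969.TL.IsUnitOn.at (hu.unit k.2 j) (hfW v hvr)) s v hpoly
        (hT K s v₀ v r (r / 2) hTs (half_pos hr) hsub) rfl fun t ht => hsD t (hsub ht)
      have m2 : HasFDerivAt (fun t => u k.2 j (s t)) (u k.2 j (s v) • fderiv ℂ (l j) v) v := by
        have m3 := ((hld j).differentiableAt (isOpen_ball.mem_nhds hvr)).hasFDerivAt.cexp
        rw [hle j v hvr] at m3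
        refine m3.congr_of_eventuallyEq ?_
        filter_upwards [isOpen_ball.mem_nhds hvr] with t ht
        exact (hle j t ht).symm
      rw [m2.fderiv, norm_smul, mul_comm] at m1
      exact le_of_mul_le_mul_right m1 (norm_pos_iff.2 (hne j v hvr))
    have k3 : HasFDerivAt (fun v => G (mkx (h v) (WithLp.toLp 2 fun j => l j v)))
        ((G : Vx V q →L[ℂ] Vx V q).comp ((mkL V q).comp
          ((fderiv ℂ h v).prod (ContinuousLinearMap.pi fun j => fderiv ℂ (l j) v)))) v :=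
      (G : Vx V q →L[ℂ] Vx V q).hasFDerivAt.comp v ((mkL V q).hasFDerivAt.comp v (hpair v hvr))
    rw [k3.fderiv]
    have hBn : 0 ≤ A₀ + ∑ j, B j :=
      add_nonneg ((norm_nonneg _).trans k1) (Finset.sum_nonneg fun j _ => (norm_nonneg _).trans (k2 j))
    refine ContinuousLinearMap.opNorm_le_bound _ hBn fun ξ => ?_
    show ‖G (mkx (fderiv ℂ h v ξ) (WithLp.toLp 2 fun j => fderiv ℂ (l j) v ξ))‖ ≤ _
    rw [hnorm _ G₀ G hG₀' hGp, hG G₀]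
    have hGd : fderiv ℂ (fun u => G₀ (h u)) v ξ = G₀ (fderiv ℂ h v ξ) := by
      have := (G₀ : V →L[ℂ] V).hasFDerivAt.comp v
        (hd.differentiableAt (isOpen_ball.mem_nhds hvr)).hasFDerivAt
      have h' : HasFDerivAt (fun u => G₀ (h u)) ((G₀ : V →L[ℂ] V).comp (fderiv ℂ h v)) v := this
      rw [h'.fderiv]
      rfl
    calc ‖mkx (G₀ (fderiv ℂ h v ξ)) (WithLp.toLp 2 fun j => fderiv ℂ (l j) v ξ)‖
        ≤ ‖G₀ (fderiv ℂ h v ξ)‖ + ∑ j, ‖fderiv ℂ (l j) v ξ‖ := norm_mkx_le _ _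
      _ ≤ A₀ * ‖ξ‖ + ∑ j, B j * ‖ξ‖ := by
        refine add_le_add ?_ (Finset.sum_le_sum fun j _ => ?_)
        · rw [← hGd]
          exact (ContinuousLinearMap.le_opNorm _ _).trans
            (mul_le_mul_of_nonneg_right k1 (norm_nonneg _))
        · exact (ContinuousLinearMap.le_opNorm _ _).trans
            (mul_le_mul_of_nonneg_right (k2 j) (norm_nonneg _))
      _ = (A₀ + ∑ j, B j) * ‖ξ‖ := by rw [← Finset.sum_mul]; ring

/-- **MX (i)** -/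
theorem mixFam : MixFamStmt := by
  intro p d n q X Y _ _ _ _ _ _ _ _ V _ _ _ T f S Q ι κ U π L 𝒟 a W u Q' ext extG hd hT hf hS
    hfib hA hP hnot hu hB hG hext hpz hpc hnorm
  have hcl : ∀ D ∈ 𝒟, IsClosed D := fun D hD => (hP D hD).1
  exact
    { cover := by
        intro y
        constructor
        · intro hy
          obtain ⟨i, hi⟩ := (hA.cover y).1 hy
          obtain ⟨k, hk⟩ := (hu.cover y).1 hy
          exact ⟨(i, k), hi, hk⟩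
        · rintro ⟨k, hk⟩
          exact (hA.cover y).2 ⟨_, hk.1⟩
      isOpen := fun k => (hA.isOpen k.1).inter (hu.isOpen k.2)
      hol := by
        intro k x y hy
        obtain ⟨x₁, c, hc⟩ := hext x
        have h1 : ContMDiffAt 𝓘(ℂ, Cm p) 𝓘(ℂ, V) ω (fun y => π k.1 y x₁) y := hA.hol k.1 x₁ y hy.1
        have h2 : (fun y => ext (π k.1 y) x) = fun y => mkx (π k.1 y x₁) (WithLp.toLp 2 fun j => c j) :=
          funext fun y => hc _
        rw [h2]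
        exact contMDiffAt_mkx (ℓ := fun j _ => c j) h1 fun j => contMDiffAt_const
      polarized := by
        intro k y hy
        obtain ⟨G, hG'⟩ := hA.polarized k.1 y hy.1
        exact ⟨extG G, hpz _ _ hG'⟩
      coord := hA.coord
      thin := fun D hD x hx => H68.TL.freq_off hf (fun z hz => hfib.submersive z (by rw [hz]; exact hx))
        (hfib.connected _ hx) (hP D hD) (hnot D hD _ hx) rfl
      mem := by
        rintro k x b ⟨hW, hxD, β, ℓ, hβ, -, -⟩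
        exact ⟨⟨hA.mem _ _ _ hβ, hW⟩, hxD⟩
      lift := fun k x hx hxD => lx_lift hA hcl hu k x hx hxD
      liftHol := fun k x b hb => lx_hol hA k x b hb
      near := fun k x b hb => lx_near hf.continuous hA hcl hu k x b hb
      logs := fun k x hx e he => lx_logs hf.continuous hA hcl hu k x hx e he
      bound := fun r K hr hK => lx_bound hT hA hcl hu hB hG hnorm r K hr hK
      change := fun k k' x b b' hb hb' => lx_change hf hfib hA hP hnot hu hG hpc k k' x b b' hb hb' }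

end Vale.Agent.P281.H68.UL
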