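import Vale.Agent.P281.H68.UL.Ext
import Vale.Agent.P281.H68.UL.Mix2

/-! P281, project T-UL, block MX (helper68): `MixStmt` from the rank statement. -/

open Set Filter Metric Vale.Agent.P281 Vale.Agent.P281.H713
open Vale.Agent.P281.MF Vale.Agent.P281.ISO Vale.Agent.P281.ELL Vale.Agent.P281.H713.TZ
open Vale.Agent.P281.H64 Vale.Agent.P281.H511.UL
open Vale.Agent.P281.H64.TU (Tame KTame HasFormsT RankAt RelFormT)
open Vale.Agent.P281.H303.UD (IsPolz)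
open Vale.Agent.P281.H969.TL (IsUnitAt IsUnitOn IsUnitF)

open scoped Topology ContDiff Manifold

noncomputable section

namespace Vale.Agent.P281.H68.UL

/-- local families of units -/
theorem exists_isUF {p d q : ℕ} {X Y : Type} [TopologicalSpace X] [ChartedSpace (Cm (p + d)) X]
    [TopologicalSpace Y] {f : X → Y} {S : Set Y} {𝒟 : Finset (Set X)} {a : Fin q → Set X → ℤ}
    (hS : IsClosed S)
    (hU : ∀ j, ∀ y₀ ∉ S, ∃ (W : Set Y) (u : X → ℂ), IsOpen W ∧ y₀ ∈ W ∧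
      IsUnitOn (Cm (p + d)) f 𝒟 (a j) W u) :
    ∃ (W : {y : Y // y ∉ S} → Set Y) (u : {y : Y // y ∉ S} → Fin q → X → ℂ),
      IsUF (Cm (p + d)) f S 𝒟 a W u := by
  choose W u hW hy hu using fun (k : {y : Y // y ∉ S}) (j : Fin q) => hU j k.1 k.2
  refine ⟨fun k => (⋂ j, W k j) ∩ Sᶜ, u, ⟨fun y => ⟨fun h => ⟨⟨y, h⟩, ?_, h⟩, ?_⟩, fun k => ?_,
    fun k j x hx => hu k j x ?_⟩⟩
  · exact mem_iInter.2 fun j => hy ⟨y, h⟩ j
  · rintro ⟨k, hk⟩
    exact hk.2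
  · exact (isOpen_iInter_of_finite fun j => hW k j).inter hS.isOpen_compl
  · exact mem_iInter.1 hx.1 j

/-- a subfamily of a family of units -/
theorem IsUF.sub {q q' : ℕ} {E X Y κ : Type} [NormedAddCommGroup E] [NormedSpace ℂ E]
    [TopologicalSpace X] [ChartedSpace E X] [TopologicalSpace Y] {f : X → Y} {S : Set Y}
    {𝒟 : Finset (Set X)} {a : Fin q → Set X → ℤ} {W : κ → Set Y} {u : κ → Fin q → X → ℂ}
    (h : IsUF E f S 𝒟 a W u) (σ : Fin q' → Fin q) :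
    IsUF E f S 𝒟 (fun j => a (σ j)) W (fun k j => u k (σ j)) :=
  ⟨h.cover, h.isOpen, fun k j => h.unit k (σ j)⟩

/-- **MX** from MX (ii) and UF. -/
theorem mix_of (hrank : MixRankStmt) (hUL : HasULStmt) : MixStmt := by
  intro p d n g q r X Y _ _ _ _ _ _ _ _ T f S Q ι U π L 𝒟 a e₀ Δ hd hT hf hS hfib hA hP hnot hΔ
    hΔ1 hU hB y hy hR
  obtain ⟨W, u, hu⟩ := exists_isUF hS hU
  obtain ⟨q', σ, hR'⟩ := hrank p d n q r X Y (EuclideanSpace ℂ (Fin g)) T f S Q ι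
    {y : Y // y ∉ S} U π L 𝒟 a W u hd hf hS hfib hA hP hnot hu y hy hR
  obtain ⟨Q', ext, extG, e1, e2, e3, e4, e5⟩ := extStmt n q' (EuclideanSpace ℂ (Fin g)) Q
  have h1 := mixFam p d n q' X Y (EuclideanSpace ℂ (Fin g)) T f S Q ι {y : Y // y ∉ S} U π L 𝒟
    (fun j => a (σ j)) W (fun k j => u k (σ j)) Q' ext extG hd hT hf hS hfib hA hP hnot (hu.sub σ)
    (fun j => hB (σ j)) e1 e2 e3 e4 e5
  exact hUL d r (n + 2 * q') (Cm (p + d)) (Cm p) X Y (Vx (EuclideanSpace ℂ (Fin g)) q') T f S Q'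
    (ι × {y : Y // y ∉ S}) (UX U W) (fun a y => ext (π a.1 y)) 𝒟
    (LX (Cm (p + d)) f 𝒟 W L fun k j => u k (σ j)) e₀ Δ hd hf hS h1 hP hΔ hΔ1 y hy hR'

end Vale.Agent.P281.H68.UL
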