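import Vale.Agent.P281.H511.UL.Spec

/-! P281, project T-UL, block MX (helper68): the mixed family (definitions). -/

open Set Filter Metric Vale.Agent.P281 Vale.Agent.P281.H713
open Vale.Agent.P281.MF Vale.Agent.P281.ISO Vale.Agent.P281.ELL Vale.Agent.P281.H713.TZ
open Vale.Agent.P281.H64 Vale.Agent.P281.H511.UL
open Vale.Agent.P281.H64.TU (Tame KTame HasFormsT RankAt RelFormT)
open Vale.Agent.P281.H303.UD (IsPolz)
open Vale.Agent.P281.H969.TL (IsUnitAt IsUnitOn IsUnitF)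

open scoped Topology ContDiff Manifold

noncomputable section

namespace Vale.Agent.P281.H68.UL

section
variable (E : Type) [NormedAddCommGroup E] [NormedSpace ℂ E] {X Y : Type} [TopologicalSpace X]
  [ChartedSpace E X] [TopologicalSpace Y]

/-- Local families of units over the open sets `W k`, which cover `Y ∖ S`. -/
structure IsUF {q : ℕ} {κ : Type} (f : X → Y) (S : Set Y) (𝒟 : Finset (Set X))
    (a : Fin q → Set X → ℤ) (W : κ → Set Y) (u : κ → Fin q → X → ℂ) : Prop where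
  cover : ∀ y, y ∉ S ↔ ∃ k, y ∈ W k
  isOpen : ∀ k, IsOpen (W k)
  unit : ∀ k j, IsUnitOn E f 𝒟 (a j) (W k) (u k j)

variable {V : Type} [NormedAddCommGroup V] [InnerProductSpace ℂ V] [FiniteDimensional ℂ V]

/-- The lifts of the mixed family: `(β, log u)`. -/
def LX {q : ℕ} {ι κ : Type} (f : X → Y) (𝒟 : Finset (Set X)) (W : κ → Set Y)
    (L : ι → X → (X → V) → Prop) (u : κ → Fin q → X → ℂ) : ι × κ → X → (X → Vx V q) → Prop :=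
  fun a x b => f x ∈ W a.2 ∧ (∀ D ∈ 𝒟, x ∉ D) ∧ ∃ (β : X → V) (ℓ : Fin q → X → ℂ), L a.1 x β ∧
    (∀ j, ContMDiffAt 𝓘(ℂ, E) 𝓘(ℂ, ℂ) ω (ℓ j) x ∧ ∀ᶠ z in 𝓝 x, Complex.exp (ℓ j z) = u a.2 j z) ∧
    ∀ z, b z = mkx (β z) (WithLp.toLp 2 fun j => ℓ j z)

end

/-- the open sets of the mixed family -/
def UX {Y ι κ : Type} (U : ι → Set Y) (W : κ → Set Y) : ι × κ → Set Y := fun a => U a.1 ∩ W a.2

/-- **MX (ii)**: for suitable units, the mixed family has rank `r` at `y`, and its image generates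
`V × ℂ^q'`. -/
def MixRankStmt : Prop :=
  ∀ (p d n q r : ℕ) (X Y : Type) [TopologicalSpace X] [T2Space X] [ChartedSpace (Cm (p + d)) X]
    [IsManifold 𝓘(ℂ, Cm (p + d)) ω X] [TopologicalSpace Y] [T2Space Y] [ChartedSpace (Cm p) Y]
    [IsManifold 𝓘(ℂ, Cm p) ω Y]
    (V : Type) [NormedAddCommGroup V] [InnerProductSpace ℂ V] [FiniteDimensional ℂ V]
    (T : Tame (Cm d) X) (f : X → Y) (S : Set Y)
    (Q : (Fin n → ℝ) → (Fin n → ℝ) → ℝ) (ι κ : Type) (U : ι → Set Y)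
    (π : ι → Y → ((Fin n → ℝ) ≃L[ℝ] V)) (L : ι → X → (X → V) → Prop)
    (𝒟 : Finset (Set X)) (a : Fin q → Set X → ℤ) (W : κ → Set Y) (u : κ → Fin q → X → ℂ), 0 < d →
    ContMDiff 𝓘(ℂ, Cm (p + d)) 𝓘(ℂ, Cm p) ω f → IsClosed S →
    IsProperFibration (n := p + d) (p := p) f S → IsAlb0 (Cm (p + d)) (Cm p) d T f S Q U π L →
    (∀ D ∈ 𝒟, J.IsPrime (Cm (p + d)) D) → (∀ D ∈ 𝒟, ∀ y ∉ S, ¬ f ⁻¹' {y} ⊆ D) →
    IsUF (Cm (p + d)) f S 𝒟 a W u → ∀ y ∉ S, XRank (Cm (p + d)) d f U L 𝒟 a r y →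
    ∃ (q' : ℕ) (σ : Fin q' → Fin q),
      RankUL (Cm (p + d)) (d := d) f (UX U W) (LX (Cm (p + d)) f 𝒟 W L fun k j => u k (σ j)) r y

/-- **MX (i)**: the mixed family. -/
def MixFamStmt : Prop :=
  ∀ (p d n q : ℕ) (X Y : Type) [TopologicalSpace X] [T2Space X] [ChartedSpace (Cm (p + d)) X]
    [IsManifold 𝓘(ℂ, Cm (p + d)) ω X] [TopologicalSpace Y] [T2Space Y] [ChartedSpace (Cm p) Y]
    [IsManifold 𝓘(ℂ, Cm p) ω Y]
    (V : Type) [NormedAddCommGroup V] [InnerProductSpace ℂ V] [FiniteDimensional ℂ V]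
    (T : Tame (Cm d) X) (f : X → Y) (S : Set Y)
    (Q : (Fin n → ℝ) → (Fin n → ℝ) → ℝ) (ι κ : Type) (U : ι → Set Y)
    (π : ι → Y → ((Fin n → ℝ) ≃L[ℝ] V)) (L : ι → X → (X → V) → Prop)
    (𝒟 : Finset (Set X)) (a : Fin q → Set X → ℤ) (W : κ → Set Y) (u : κ → Fin q → X → ℂ)
    (Q' : (Fin (n + 2 * q) → ℝ) → (Fin (n + 2 * q) → ℝ) → ℝ)
    (ext : ((Fin n → ℝ) ≃L[ℝ] V) → ((Fin (n + 2 * q) → ℝ) ≃L[ℝ] Vx V q))
    (extG : (V ≃L[ℂ] V) → (Vx V q ≃L[ℂ] Vx V q)), 0 < d → TameMono T →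
    ContMDiff 𝓘(ℂ, Cm (p + d)) 𝓘(ℂ, Cm p) ω f → IsClosed S →
    IsProperFibration (n := p + d) (p := p) f S → IsAlb0 (Cm (p + d)) (Cm p) d T f S Q U π L →
    (∀ D ∈ 𝒟, J.IsPrime (Cm (p + d)) D) → (∀ D ∈ 𝒟, ∀ y ∉ S, ¬ f ⁻¹' {y} ⊆ D) →
    IsUF (Cm (p + d)) f S 𝒟 a W u →
    (∀ j, ∀ ρ K : ℝ, 0 < ρ → 0 < K → ∃ B : ℝ, ∀ (y : Y) (u : X → ℂ), y ∉ S →
      IsUnitAt (Cm (p + d)) f 𝒟 (a j) y u → ∀ (s : Cm d → X) (v₀ : Cm d),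
      IsPolydisc (Cm (p + d)) f s v₀ ρ → T K s v₀ ρ → f (s v₀) = y →
      (∀ v ∈ ball v₀ ρ, ∀ D ∈ 𝒟, s v ∉ D) →
      ‖fderiv ℂ (fun v => u (s v)) v₀‖ ≤ B * ‖u (s v₀)‖) →
    (∀ G, IsProdG G (extG G)) →
    (∀ x, ∃ (x₁ : Fin n → ℝ) (c : EuclideanSpace ℂ (Fin q)), ∀ P, ext P x = mkx (P x₁) c) →
    (∀ P G, IsPolz Q P G → IsPolz Q' (ext P) (extG G)) →
    (∀ P P' G, IsPeriodChange Q P P' G → IsPeriodChange Q' (ext P) (ext P') (extG G)) →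
    (∀ P G G', IsPolz Q P G → IsPolz Q' (ext P) G' → ∀ v, ‖G' v‖ = ‖extG G v‖) →
    IsUL (Cm (p + d)) (Cm p) d T f S Q' (UX U W) (fun a y => ext (π a.1 y)) 𝒟
      (LX (Cm (p + d)) f 𝒟 W L u)

end Vale.Agent.P281.H68.UL
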