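import Vale.Agent.P281.H713.Defs
import Mathlib.Analysis.InnerProductSpace.ProdL2

/-! P281, project T-UL, block PX (helper68): products of polarized periods with `ℤ[i] ^ q`. -/

open scoped Manifold ContDiff Topology ComplexConjugate
open Set

noncomputable section

namespace Vale.Agent.P281.H68.UL

open Vale.Agent.P281.H713

variable {V : Type} [NormedAddCommGroup V] [InnerProductSpace ℂ V]

/-- `V × ℂ ^ q`, with the product Hermitian form. -/
abbrev Vh (V : Type) (q : ℕ) : Type := WithLp 2 (V × EuclideanSpace ℂ (Fin q))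

/-- the pair `(v, z)` -/
def mk {q : ℕ} (v : V) (z : EuclideanSpace ℂ (Fin q)) : Vh V q := WithLp.toLp 2 (v, z)

/-- the first projection -/
def p1 {q : ℕ} : Vh V q →L[ℂ] V :=
  (ContinuousLinearMap.fst ℂ V (EuclideanSpace ℂ (Fin q))).comp
    (WithLp.prodContinuousLinearEquiv 2 ℂ V (EuclideanSpace ℂ (Fin q))).toContinuousLinearMap

/-- the second projection -/
def p2 {q : ℕ} : Vh V q →L[ℂ] EuclideanSpace ℂ (Fin q) :=
  (ContinuousLinearMap.snd ℂ V (EuclideanSpace ℂ (Fin q))).comp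
    (WithLp.prodContinuousLinearEquiv 2 ℂ V (EuclideanSpace ℂ (Fin q))).toContinuousLinearMap

@[simp] theorem p1_mk {q : ℕ} (v : V) (z : EuclideanSpace ℂ (Fin q)) : p1 (mk v z) = v := rfl
@[simp] theorem p2_mk {q : ℕ} (v : V) (z : EuclideanSpace ℂ (Fin q)) : p2 (mk v z) = z := rfl
theorem mk_p {q : ℕ} (w : Vh V q) : mk (p1 w) (p2 w) = w := rfl

theorem inner_eq {q : ℕ} (w w' : Vh V q) :
    inner ℂ w w' = inner ℂ (p1 w) (p1 w') + inner ℂ (p2 w) (p2 w') := by
  rw [WithLp.prod_inner_apply]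
  rfl

/-- the coordinates of `ℝ ^ (n + (q + q))` -/
def r1 {n q : ℕ} (x : Fin (n + (q + q)) → ℝ) : Fin n → ℝ := fun i => x (Fin.castAdd _ i)
/-- real parts -/
def r2 {n q : ℕ} (x : Fin (n + (q + q)) → ℝ) : Fin q → ℝ := fun j => x (Fin.natAdd n (Fin.castAdd _ j))
/-- imaginary parts -/
def r3 {n q : ℕ} (x : Fin (n + (q + q)) → ℝ) : Fin q → ℝ := fun j => x (Fin.natAdd n (Fin.natAdd q j))

/-- the point `a + i b` -/
def zz {q : ℕ} (a b : Fin q → ℝ) : EuclideanSpace ℂ (Fin q) :=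
  WithLp.toLp 2 fun j => (a j : ℂ) + Complex.I * (b j : ℂ)

theorem append_r {n q : ℕ} (x : Fin (n + (q + q)) → ℝ) :
    Fin.append (r1 x) (Fin.append (r2 x) (r3 x)) = x := by
  funext i
  refine Fin.addCases (fun i => ?_) (fun i => ?_) i
  · rw [Fin.append_left]; rfl
  · rw [Fin.append_right]
    refine Fin.addCases (fun j => ?_) (fun j => ?_) i
    · rw [Fin.append_left]; rfl
    · rw [Fin.append_right]; rfl

@[simp] theorem r1_append {n q : ℕ} (x : Fin n → ℝ) (a b : Fin q → ℝ) :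
    r1 (Fin.append x (Fin.append a b)) = x := by
  funext i; exact Fin.append_left _ _ _
@[simp] theorem r2_append {n q : ℕ} (x : Fin n → ℝ) (a b : Fin q → ℝ) :
    r2 (Fin.append x (Fin.append a b)) = a := by
  funext i; rw [r2, Fin.append_right, Fin.append_left]
@[simp] theorem r3_append {n q : ℕ} (x : Fin n → ℝ) (a b : Fin q → ℝ) :
    r3 (Fin.append x (Fin.append a b)) = b := by
  funext i; rw [r3, Fin.append_right, Fin.append_right]

variable [FiniteDimensional ℂ V]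

/-- the periods `π ⊕ ℤ[i] ^ q` -/
def prodPi {n : ℕ} (q : ℕ) (π : (Fin n → ℝ) ≃L[ℝ] V) : (Fin (n + (q + q)) → ℝ) ≃L[ℝ] Vh V q :=
  have : FiniteDimensional ℝ (Vh V q) := FiniteDimensional.complexToReal _
  LinearEquiv.toContinuousLinearEquiv
    { toFun := fun x => mk (π (r1 x)) (zz (r2 x) (r3 x))
      invFun := fun w => Fin.append (π.symm (p1 w)) (Fin.append (fun j => (p2 w j).re)
        (fun j => (p2 w j).im))
      map_add' := by
        intro x y
        have h1 : r1 (x + y) = r1 x + r1 y := rfl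
        have h2 : zz (r2 (x + y)) (r3 (x + y)) = zz (r2 x) (r3 x) + zz (r2 y) (r3 y) := by
          ext j
          show (((x _ + y _ : ℝ)) : ℂ) + Complex.I * ((x _ + y _ : ℝ) : ℂ) =
            ((x _ : ℝ) : ℂ) + Complex.I * ((x _ : ℝ) : ℂ) + (((y _ : ℝ) : ℂ) + Complex.I * ((y _ : ℝ) : ℂ))
          push_cast
          ring
        rw [h1, h2, map_add]
        rfl
      map_smul' := by
        intro c x
        have h1 : r1 (c • x) = c • r1 x := rfl
        have h2 : zz (r2 (c • x)) (r3 (c • x)) = c • zz (r2 x) (r3 x) := by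
          ext j
          show (((c * x _ : ℝ)) : ℂ) + Complex.I * ((c * x _ : ℝ) : ℂ) =
            c • (((x _ : ℝ) : ℂ) + Complex.I * ((x _ : ℝ) : ℂ))
          rw [Complex.real_smul]
          push_cast
          ring
        rw [h1, h2, map_smul]
        rfl
      left_inv := by
        intro x
        show Fin.append (π.symm (π (r1 x))) _ = x
        rw [π.symm_apply_apply]
        conv_rhs => rw [← append_r x]
        congr 2
        · funext j
          show ((x _ : ℂ) + Complex.I * (x _ : ℂ)).re = r2 x j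
          simp [r2]
        · funext j
          show ((x _ : ℂ) + Complex.I * (x _ : ℂ)).im = r3 x j
          simp [r3]
      right_inv := by
        intro w
        show mk (π (r1 (Fin.append _ (Fin.append _ _)))) (zz (r2 (Fin.append _ (Fin.append _ _)))
          (r3 (Fin.append _ (Fin.append _ _)))) = w
        rw [r1_append, r2_append, r3_append, π.apply_symm_apply]
        conv_rhs => rw [← mk_p w]
        congr 1
        ext j
        show (((p2 w j).re : ℂ)) + Complex.I * ((p2 w j).im : ℂ) = p2 w j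
        rw [mul_comm]
        exact Complex.re_add_im _ }

theorem prodPi_apply {n q : ℕ} (π : (Fin n → ℝ) ≃L[ℝ] V) (x : Fin (n + (q + q)) → ℝ) :
    prodPi q π x = mk (π (r1 x)) (zz (r2 x) (r3 x)) := rfl

theorem prodPi_symm {n q : ℕ} (π : (Fin n → ℝ) ≃L[ℝ] V) (w : Vh V q) :
    (prodPi q π).symm w = Fin.append (π.symm (p1 w)) (Fin.append (fun j => (p2 w j).re)
        (fun j => (p2 w j).im)) := rfl

/-- the polarization of the product -/
def prodQ {n : ℕ} (q : ℕ) (Q : (Fin n → ℝ) → (Fin n → ℝ) → ℝ)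
    (x x' : Fin (n + (q + q)) → ℝ) : ℝ :=
  Q (r1 x) (r1 x') + (inner ℂ (zz (r2 x) (r3 x)) (zz (r2 x') (r3 x'))).im

/-- the sum `G ⊕ 1` -/
def prodG (q : ℕ) (G : V ≃L[ℂ] V) : Vh V q ≃L[ℂ] Vh V q :=
  (WithLp.prodContinuousLinearEquiv 2 ℂ V (EuclideanSpace ℂ (Fin q))).trans
    ((G.prodCongr (ContinuousLinearEquiv.refl ℂ _)).trans
      (WithLp.prodContinuousLinearEquiv 2 ℂ V (EuclideanSpace ℂ (Fin q))).symm)

omit [FiniteDimensional ℂ V] in
theorem prodG_apply {q : ℕ} (G : V ≃L[ℂ] V) (w : Vh V q) : prodG q G w = mk (G (p1 w)) (p2 w) := rfl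

omit [FiniteDimensional ℂ V] in
theorem prodG_mk {q : ℕ} (G : V ≃L[ℂ] V) (v : V) (z : EuclideanSpace ℂ (Fin q)) :
    prodG q G (mk v z) = mk (G v) z := rfl

/-- the sum of a polarization with the standard one -/
theorem polz_prod {n q : ℕ} {Q : (Fin n → ℝ) → (Fin n → ℝ) → ℝ} {π : (Fin n → ℝ) ≃L[ℝ] V}
    {G : V ≃L[ℂ] V} (hG : ∀ x x', (inner ℂ (G (π x)) (G (π x'))).im = Q x x')
    (x x' : Fin (n + (q + q)) → ℝ) :
    (inner ℂ (prodG q G (prodPi q π x)) (prodG q G (prodPi q π x'))).im = prodQ q Q x x' := by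
  rw [inner_eq, prodG_apply, prodG_apply, prodPi_apply, prodPi_apply]
  simp only [p1_mk, p2_mk, Complex.add_im]
  rw [hG]
  rfl

theorem isPolarized_prod {n q : ℕ} {Q : (Fin n → ℝ) → (Fin n → ℝ) → ℝ} {π : (Fin n → ℝ) ≃L[ℝ] V}
    (h : IsPolarized Q π) : IsPolarized (prodQ q Q) (prodPi q π) := by
  obtain ⟨G, hG⟩ := h
  exact ⟨prodG q G, polz_prod hG⟩

/-- a polarizing map determines the Hermitian norm -/
theorem norm_sq_of_polz {W : Type} [NormedAddCommGroup W] [InnerProductSpace ℂ W] {n : ℕ}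
    {Q : (Fin n → ℝ) → (Fin n → ℝ) → ℝ} {π : (Fin n → ℝ) ≃L[ℝ] W} {G : W ≃L[ℂ] W}
    (hG : ∀ x x', (inner ℂ (G (π x)) (G (π x'))).im = Q x x') (w : W) :
    ‖G w‖ ^ 2 = Q (π.symm w) (π.symm (Complex.I • w)) := by
  rw [← hG, π.apply_symm_apply, π.apply_symm_apply, map_smul, inner_smul_right,
    inner_self_eq_norm_sq_to_K]
  have : (Complex.I * ((‖G w‖ : ℂ) ^ 2)).im = ‖G w‖ ^ 2 := by
    rw [← Complex.ofReal_pow, Complex.I_mul_im, Complex.ofReal_re]
  exact this.symm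

/-- the norm given by ANY polarizing map of the product -/
theorem norm_prod {n q : ℕ} {Q : (Fin n → ℝ) → (Fin n → ℝ) → ℝ} {π : (Fin n → ℝ) ≃L[ℝ] V}
    {G : V ≃L[ℂ] V} (hG : ∀ x x', (inner ℂ (G (π x)) (G (π x'))).im = Q x x')
    {Gh : Vh V q ≃L[ℂ] Vh V q}
    (hGh : ∀ x x', (inner ℂ (Gh (prodPi q π x)) (Gh (prodPi q π x'))).im = prodQ q Q x x')
    (w : Vh V q) : ‖Gh w‖ ^ 2 = ‖G (p1 w)‖ ^ 2 + ‖p2 w‖ ^ 2 := by
  rw [norm_sq_of_polz hGh, ← norm_sq_of_polz (polz_prod hG)]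
  rw [← inner_self_eq_norm_sq (𝕜 := ℂ), ← inner_self_eq_norm_sq (𝕜 := ℂ),
    ← inner_self_eq_norm_sq (𝕜 := ℂ), inner_eq, prodG_apply, p1_mk, p2_mk, map_add]

theorem polz_of_prod {n q : ℕ} {Q : (Fin n → ℝ) → (Fin n → ℝ) → ℝ} {π : (Fin n → ℝ) ≃L[ℝ] V}
    (h : IsPolarized Q π) {Gh : Vh V q ≃L[ℂ] Vh V q}
    (hGh : ∀ x x', (inner ℂ (Gh (prodPi q π x)) (Gh (prodPi q π x'))).im = prodQ q Q x x') :
    ∃ G : V ≃L[ℂ] V, (∀ x x', (inner ℂ (G (π x)) (G (π x'))).im = Q x x') ∧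
      ∀ w, ‖Gh w‖ ^ 2 = ‖G (p1 w)‖ ^ 2 + ‖p2 w‖ ^ 2 := by
  obtain ⟨G, hG⟩ := h
  exact ⟨G, hG, norm_prod hG hGh⟩

/-- the change of periods `G ⊕ 1` -/
theorem isPeriodChange_prod {n q : ℕ} {Q : (Fin n → ℝ) → (Fin n → ℝ) → ℝ}
    {π π' : (Fin n → ℝ) ≃L[ℝ] V} {G : V ≃L[ℂ] V} (h : IsPeriodChange Q π π' G) :
    IsPeriodChange (prodQ q Q) (prodPi q π) (prodPi q π') (prodG q G) := by
  obtain ⟨h1, h2, h3⟩ := h
  have happ : ∀ (m : Fin n → ℤ) (k : Fin q → ℤ) (l : Fin q → ℤ),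
      (fun i => ((Fin.append m (Fin.append k l) i : ℤ) : ℝ)) =
        Fin.append (fun i => (m i : ℝ)) (Fin.append (fun i => (k i : ℝ)) (fun i => (l i : ℝ))) := by
    intro m k l
    funext i
    refine Fin.addCases (fun i => ?_) (fun i => ?_) i
    · rw [Fin.append_left, Fin.append_left]
    · rw [Fin.append_right, Fin.append_right]
      refine Fin.addCases (fun j => ?_) (fun j => ?_) i
      · rw [Fin.append_left, Fin.append_left]
      · rw [Fin.append_right, Fin.append_right]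
  refine ⟨fun m => ?_, fun m' => ?_, fun x x' => ?_⟩
  · obtain ⟨m', hm'⟩ := h1 fun i => m (Fin.castAdd _ i)
    refine ⟨Fin.append m' (Fin.append (fun j => m (Fin.natAdd n (Fin.castAdd _ j)))
      (fun j => m (Fin.natAdd n (Fin.natAdd q j)))), ?_⟩
    rw [happ, prodPi_apply, prodPi_apply, prodG_mk, r1_append, r2_append, r3_append, ← hm']
    rfl
  · obtain ⟨m, hm⟩ := h2 fun i => m' (Fin.castAdd _ i)
    refine ⟨Fin.append m (Fin.append (fun j => m' (Fin.natAdd n (Fin.castAdd _ j)))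
      (fun j => m' (Fin.natAdd n (Fin.natAdd q j)))), ?_⟩
    rw [happ, prodPi_apply, prodPi_apply, prodG_mk, r1_append, r2_append, r3_append, hm]
    rfl
  · have hk : ∀ x, (prodPi q π').symm (prodG q G (prodPi q π x)) =
        Fin.append (π'.symm (G (π (r1 x)))) (Fin.append (r2 x) (r3 x)) := by
      intro x
      rw [(prodPi q π').symm_apply_eq, prodPi_apply, prodPi_apply, r1_append, r2_append, r3_append,
        π'.apply_symm_apply]
      rfl
    rw [hk, hk, prodQ, r1_append, r1_append, r2_append, r2_append, r3_append, r3_append, h3]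
    rfl

variable {E' : Type} [NormedAddCommGroup E'] [NormedSpace ℂ E'] {Y : Type} [TopologicalSpace Y]
  [ChartedSpace E' Y]

/-- the family of the product periods -/
theorem isPeriodFamily_prod {n q : ℕ} {S : Set Y} {Q : (Fin n → ℝ) → (Fin n → ℝ) → ℝ} {ι : Type}
    {U : ι → Set Y} {π : ι → Y → ((Fin n → ℝ) ≃L[ℝ] V)} (h : IsPeriodFamily E' S Q U π) :
    IsPeriodFamily E' S (prodQ q Q) U (fun a y => prodPi q (π a y)) where
  cover := h.cover
  isOpen := h.isOpen
  hol := by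
    intro a x y hy
    have h1 : ContMDiffAt 𝓘(ℂ, E') 𝓘(ℂ, V) ω (fun y => π a y (r1 x)) y := h.hol a (r1 x) y hy
    have h2 : ContMDiff 𝓘(ℂ, V) 𝓘(ℂ, Vh V q) ω (fun v : V => mk v (zz (r2 x) (r3 x))) := by
      have h3 : ContDiff ℂ ω (fun v : V => mk v (zz (r2 x) (r3 x))) := by
        have h4 : ContDiff ℂ ω (fun v : V => (v, zz (r2 x) (r3 x))) := by fun_prop
        exact (WithLp.prodContinuousLinearEquiv 2 ℂ V (EuclideanSpace ℂ (Fin q))).symm.contDiff.comp h4
      exact h3.contMDiff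
    exact h2.contMDiffAt.comp y h1
  polarized := fun a y hy => isPolarized_prod (h.polarized a y hy)

end Vale.Agent.P281.H68.UL
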