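import Vale.Agent.P281.H511.UL.Spec
import Vale.Agent.P281.H68.UL.Prod

/-! P281, project T-UL, block PX (helper68): `ExtStmt`. -/

open scoped Manifold ContDiff Topology ComplexConjugate
open Set

noncomputable section

namespace Vale.Agent.P281.H68.UL

open Vale.Agent.P281.H713 Vale.Agent.P281.H511.UL
open Vale.Agent.P281.H303.UD (IsPolz)

/-- **PX** -/
theorem extStmt : ExtStmt := by
  intro n q V _ _ _ Q
  rw [two_mul]
  refine ⟨prodQ q Q, prodPi q, prodG q, fun G v c => rfl, fun x => ⟨r1 x, zz (r2 x) (r3 x),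
    fun P => rfl⟩, fun P G h => ?_, fun P P' G h => isPeriodChange_prod h, fun P G G' h h' v => ?_⟩
  · intro x x'
    exact polz_prod h x x'
  · have h1 := norm_prod h h' v
    have h2 := norm_prod h (polz_prod h) v
    rw [← h2] at h1
    exact (sq_eq_sq₀ (norm_nonneg _) (norm_nonneg _)).1 h1

end Vale.Agent.P281.H68.UL
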