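import Vale.Agent.P281.H68.UL.Defs
import Vale.Agent.P281.H68.TL.Har
import Vale.Agent.P281.H969.TL.Unit
import Vale.Agent.P281.H165.L.Log

/-! P281, project T-UL, block MX (helper68): logarithms, preliminaries. -/

open Set Filter Metric Vale.Agent.P281 Vale.Agent.P281.H713
open Vale.Agent.P281.MF Vale.Agent.P281.ISO Vale.Agent.P281.ELL Vale.Agent.P281.H713.TZ
open Vale.Agent.P281.H64 Vale.Agent.P281.H511.UL
open Vale.Agent.P281.H64.TU (Tame KTame HasFormsT RankAt RelFormT)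
open Vale.Agent.P281.H303.UD (IsPolz)
open Vale.Agent.P281.H969.TL (IsUnitAt IsUnitOn IsUnitF)

open scoped Topology ContDiff Manifold

noncomputable section

namespace Vale.Agent.P281.H68.UL

section
variable {E : Type} [NormedAddCommGroup E] [NormedSpace ℂ E] {X : Type} [TopologicalSpace X]
  [ChartedSpace E X]

/-- a local logarithm with a prescribed value -/
theorem exists_log_at {u : X → ℂ} {x : X} (hu : ContMDiffAt 𝓘(ℂ, E) 𝓘(ℂ, ℂ) ω u x) (h0 : u x ≠ 0)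
    {c : ℂ} (hc : Complex.exp c = u x) : ∃ ℓ : X → ℂ, ContMDiffAt 𝓘(ℂ, E) 𝓘(ℂ, ℂ) ω ℓ x ∧ ℓ x = c ∧
      ∀ᶠ z in 𝓝 x, Complex.exp (ℓ z) = u z := by
  have hF : ContDiffAt ℂ ω (fun w : ℂ => c + Complex.log (w / u x)) (u x) := by
    have h1 : u x / u x ∈ Complex.slitPlane := by
      rw [div_self h0]; exact Complex.one_mem_slitPlane
    have h2 : ContDiffAt ℂ ω (fun w : ℂ => w / u x) (u x) := by fun_prop
    exact contDiffAt_const.add (ContDiffAt.comp (g := Complex.log) (f := fun w : ℂ => w / u x) (u x)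
      (Complex.contDiffAt_log h1) h2)
  refine ⟨fun z => c + Complex.log (u z / u x), ?_, ?_, ?_⟩
  · exact ContMDiffAt.comp (g := fun w : ℂ => c + Complex.log (w / u x)) x hF.contMDiffAt hu
  · show c + Complex.log (u x / u x) = c
    rw [div_self h0, Complex.log_one, add_zero]
  · filter_upwards [hu.continuousAt.eventually_ne h0] with z hz
    rw [Complex.exp_add, Complex.exp_log (div_ne_zero hz h0), hc, mul_div_cancel₀ _ h0]

theorem exists_log_at' {u : X → ℂ} {x : X} (hu : ContMDiffAt 𝓘(ℂ, E) 𝓘(ℂ, ℂ) ω u x)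
    (h0 : u x ≠ 0) : ∃ ℓ : X → ℂ, ContMDiffAt 𝓘(ℂ, E) 𝓘(ℂ, ℂ) ω ℓ x ∧
      ∀ᶠ z in 𝓝 x, Complex.exp (ℓ z) = u z := by
  obtain ⟨ℓ, h1, -, h2⟩ := exists_log_at hu h0 (Complex.exp_log h0)
  exact ⟨ℓ, h1, h2⟩

end

/-- two logarithms of proportional functions differ by a constant -/
theorem log_sub {α : Type*} {F : Filter α} {l m : α → ℂ} {l₀ m₀ : ℂ} (h1 : Tendsto l F (𝓝 l₀))
    (h2 : Tendsto m F (𝓝 m₀))
    (h : ∀ᶠ z in F, Complex.exp (l z - m z) = Complex.exp (l₀ - m₀)) :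
    ∀ᶠ z in F, l z - m z = l₀ - m₀ := by
  have h3 : Tendsto (fun z => (l z - m z) - (l₀ - m₀)) F (𝓝 0) := by
    have := (h1.sub h2).sub_const (l₀ - m₀)
    rwa [sub_self] at this
  have h4 : ∀ᶠ z in F, ‖(l z - m z) - (l₀ - m₀)‖ < 1 := by
    have := h3.norm
    rw [norm_zero] at this
    exact this.eventually (gt_mem_nhds one_pos)
  filter_upwards [h, h4] with z hz hz4
  have h5 : Complex.exp ((l z - m z) - (l₀ - m₀)) = 1 := by
    rw [Complex.exp_sub, hz, div_self (Complex.exp_ne_zero _)]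
  obtain ⟨n, hn⟩ := Complex.exp_eq_one_iff.1 h5
  have h6 : ‖(l z - m z) - (l₀ - m₀)‖ = |(n : ℝ)| * (2 * Real.pi) := by
    rw [hn]
    simp [abs_of_pos Real.pi_pos]
  have h7 : n = 0 := by
    by_contra hne
    have h8 : (1 : ℝ) ≤ |(n : ℝ)| := by
      have := Int.one_le_abs hne
      exact_mod_cast this
    have h9 : (1 : ℝ) < 2 * Real.pi := by linarith [Real.pi_gt_three]
    have h10 : 1 * (2 * Real.pi) ≤ |(n : ℝ)| * (2 * Real.pi) :=
      mul_le_mul_of_nonneg_right h8 (by positivity)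
    rw [h6] at hz4
    linarith
  rw [h7, Int.cast_zero, zero_mul] at hn
  exact sub_eq_zero.1 hn

section
variable {V : Type} [NormedAddCommGroup V] [InnerProductSpace ℂ V]

/-- `mkx` as a linear map of the pair of `v` and the coordinates -/
def mkL (V : Type) [NormedAddCommGroup V] [InnerProductSpace ℂ V] (q : ℕ) :
    (V × (Fin q → ℂ)) →L[ℂ] WithLp 2 (V × EuclideanSpace ℂ (Fin q)) :=
  (WithLp.prodContinuousLinearEquiv 2 ℂ V (EuclideanSpace ℂ (Fin q))).symm.toContinuousLinearMap.comp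
    ((ContinuousLinearMap.id ℂ V).prodMap
      (PiLp.continuousLinearEquiv 2 ℂ (fun _ : Fin q => ℂ)).symm.toContinuousLinearMap)

theorem mkL_apply {q : ℕ} (v : V) (c : Fin q → ℂ) :
    mkL V q (v, c) = mkx v (WithLp.toLp 2 c) := rfl

variable [FiniteDimensional ℂ V]
  {E : Type} [NormedAddCommGroup E] [NormedSpace ℂ E] {X : Type} [TopologicalSpace X]
  [ChartedSpace E X]

omit [FiniteDimensional ℂ V] in
theorem contMDiffAt_mkx {q : ℕ} {β : X → V} {ℓ : Fin q → X → ℂ} {x : X}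
    (hβ : ContMDiffAt 𝓘(ℂ, E) 𝓘(ℂ, V) ω β x)
    (hℓ : ∀ j, ContMDiffAt 𝓘(ℂ, E) 𝓘(ℂ, ℂ) ω (ℓ j) x) :
    ContMDiffAt 𝓘(ℂ, E) 𝓘(ℂ, Vx V q) ω
      (fun z => mkx (β z) (WithLp.toLp 2 fun j => ℓ j z)) x := by
  have h1 : ContMDiffAt 𝓘(ℂ, E) 𝓘(ℂ, Fin q → ℂ) ω (fun z => fun j => ℓ j z) x :=
    contMDiffAt_pi_space.2 hℓ
  have h2 : ContMDiffAt 𝓘(ℂ, E) 𝓘(ℂ, V × (Fin q → ℂ)) ω (fun z => (β z, fun j => ℓ j z)) x :=
    hβ.prodMk_space h1
  exact ContMDiffAt.comp (g := mkL V q) x (mkL V q).contDiff.contMDiff.contMDiffAt h2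

end

end Vale.Agent.P281.H68.UL
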