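import Vale.Agent.P281.H68.UL.Mix0

/-! P281, project T-UL, block MX (helper68): **MX (i)**, the mixed family. -/

open Set Filter Metric Vale.Agent.P281 Vale.Agent.P281.H713
open Vale.Agent.P281.MF Vale.Agent.P281.ISO Vale.Agent.P281.ELL Vale.Agent.P281.H713.TZ
open Vale.Agent.P281.H64 Vale.Agent.P281.H511.UL
open Vale.Agent.P281.H64.TU (Tame KTame HasFormsT RankAt RelFormT)
open Vale.Agent.P281.H303.UD (IsPolz)
open Vale.Agent.P281.H969.TL (IsUnitAt IsUnitOn IsUnitF)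

open scoped Topology ContDiff Manifold

noncomputable section

set_option linter.unusedSectionVars false

namespace Vale.Agent.P281.H68.UL

variable {p d n q : ℕ} {X Y : Type} [TopologicalSpace X] [T2Space X] [ChartedSpace (Cm (p + d)) X]
    [IsManifold 𝓘(ℂ, Cm (p + d)) ω X] [TopologicalSpace Y] [T2Space Y] [ChartedSpace (Cm p) Y]
    [IsManifold 𝓘(ℂ, Cm p) ω Y]
    {V : Type} [NormedAddCommGroup V] [InnerProductSpace ℂ V] [FiniteDimensional ℂ V]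
    {T : Tame (Cm d) X} {f : X → Y} {S : Set Y}
    {Q : (Fin n → ℝ) → (Fin n → ℝ) → ℝ} {ι κ : Type} {U : ι → Set Y}
    {π : ι → Y → ((Fin n → ℝ) ≃L[ℝ] V)} {L : ι → X → (X → V) → Prop}
    {𝒟 : Finset (Set X)} {a : Fin q → Set X → ℤ} {W : κ → Set Y} {u : κ → Fin q → X → ℂ}

omit [T2Space X] [T2Space Y] [ChartedSpace (Cm p) Y] [IsManifold 𝓘(ℂ, Cm p) ω Y] in
/-- the units are holomorphic and invertible off `𝒟` -/
theorem IsUF.hol (hu : IsUF (Cm (p + d)) f S 𝒟 a W u) (hcl : ∀ D ∈ 𝒟, IsClosed D) {k : κ} {x : X}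
    (hx : f x ∈ W k) (hxD : ∀ D ∈ 𝒟, x ∉ D) (j : Fin q) :
    ContMDiffAt 𝓘(ℂ, Cm (p + d)) 𝓘(ℂ, ℂ) ω (u k j) x ∧ u k j x ≠ 0 :=
  H969.TL.IsUnitOn.hol (hu.unit k j) hcl hx hxD

omit [T2Space X] [T2Space Y] [ChartedSpace (Cm p) Y] [IsManifold 𝓘(ℂ, Cm p) ω Y] in
theorem offD_open (hcl : ∀ D ∈ 𝒟, IsClosed D) {x : X} (hxD : ∀ D ∈ 𝒟, x ∉ D) :
    ∀ᶠ z in 𝓝 x, ∀ D ∈ 𝒟, z ∉ D :=
  (Filter.eventually_all_finset 𝒟).2 fun D hD => (hcl D hD).isOpen_compl.mem_nhds (hxD D hD)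

/-- `lift` -/
theorem lx_lift (hA : IsAlb0 (Cm (p + d)) (Cm p) d T f S Q U π L)
    (hcl : ∀ D ∈ 𝒟, IsClosed D) (hu : IsUF (Cm (p + d)) f S 𝒟 a W u) (k : ι × κ) (x : X)
    (hx : f x ∈ UX U W k) (hxD : ∀ D ∈ 𝒟, x ∉ D) :
    ∃ b : X → Vx V q, LX (Cm (p + d)) f 𝒟 W L u k x b := by
  obtain ⟨β, hβ⟩ := hA.lift k.1 x hx.1
  have h1 := fun j => exists_log_at' (hu.hol hcl hx.2 hxD j).1 (hu.hol hcl hx.2 hxD j).2
  choose ℓ hℓ using h1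
  exact ⟨fun z => mkx (β z) (WithLp.toLp 2 fun j => ℓ j z), hx.2, hxD, β, ℓ, hβ, hℓ, fun z => rfl⟩

/-- `liftHol` -/
theorem lx_hol (hA : IsAlb0 (Cm (p + d)) (Cm p) d T f S Q U π L) (k : ι × κ) (x : X)
    (b : X → Vx V q) (hb : LX (Cm (p + d)) f 𝒟 W L u k x b) :
    ContMDiffAt 𝓘(ℂ, Cm (p + d)) 𝓘(ℂ, Vx V q) ω b x := by
  obtain ⟨-, -, β, ℓ, hβ, hℓ, h⟩ := hb
  have h1 : b = fun z => mkx (β z) (WithLp.toLp 2 fun j => ℓ j z) := funext h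
  rw [h1]
  exact contMDiffAt_mkx (hA.liftHol _ _ _ hβ) fun j => (hℓ j).1

/-- `near` -/
theorem lx_near (hf : Continuous f) (hA : IsAlb0 (Cm (p + d)) (Cm p) d T f S Q U π L)
    (hcl : ∀ D ∈ 𝒟, IsClosed D) (hu : IsUF (Cm (p + d)) f S 𝒟 a W u) (k : ι × κ) (x : X)
    (b : X → Vx V q) (hb : LX (Cm (p + d)) f 𝒟 W L u k x b) :
    ∀ᶠ z in 𝓝 x, LX (Cm (p + d)) f 𝒟 W L u k z b := by
  obtain ⟨hW, hxD, β, ℓ, hβ, hℓ, h⟩ := hb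
  have h1 : ∀ᶠ z in 𝓝 x, f z ∈ W k.2 := hf.continuousAt.preimage_mem_nhds ((hu.isOpen _).mem_nhds hW)
  have h2 : ∀ᶠ z in 𝓝 x, ∀ j, ContMDiffAt 𝓘(ℂ, Cm (p + d)) 𝓘(ℂ, ℂ) ω (ℓ j) z :=
    Filter.eventually_all.2 fun j => HolV.eventually (hℓ j).1
  have h3 : ∀ᶠ z in 𝓝 x, ∀ j, ∀ᶠ z' in 𝓝 z, Complex.exp (ℓ j z') = u k.2 j z' :=
    Filter.eventually_all.2 fun j => (hℓ j).2.eventually_nhds
  filter_upwards [h1, offD_open hcl hxD, hA.near _ _ _ hβ, h2, h3] with z z1 z2 z3 z4 z5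
  exact ⟨z1, z2, β, ℓ, z3, fun j => ⟨z4 j, z5 j⟩, h⟩

/-- `change` -/
theorem lx_change (hf : ContMDiff 𝓘(ℂ, Cm (p + d)) 𝓘(ℂ, Cm p) ω f)
    (hfib : IsProperFibration (n := p + d) (p := p) f S)
    (hA : IsAlb0 (Cm (p + d)) (Cm p) d T f S Q U π L) (hP : ∀ D ∈ 𝒟, J.IsPrime (Cm (p + d)) D)
    (hnot : ∀ D ∈ 𝒟, ∀ y ∉ S, ¬ f ⁻¹' {y} ⊆ D) (hu : IsUF (Cm (p + d)) f S 𝒟 a W u)
    {Q' : (Fin (n + 2 * q) → ℝ) → (Fin (n + 2 * q) → ℝ) → ℝ}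
    {ext : ((Fin n → ℝ) ≃L[ℝ] V) → ((Fin (n + 2 * q) → ℝ) ≃L[ℝ] Vx V q)}
    {extG : (V ≃L[ℂ] V) → (Vx V q ≃L[ℂ] Vx V q)} (hG : ∀ G, IsProdG G (extG G))
    (hpc : ∀ P P' G, IsPeriodChange Q P P' G → IsPeriodChange Q' (ext P) (ext P') (extG G))
    (k k' : ι × κ) (x : X) (b b' : X → Vx V q) (hb : LX (Cm (p + d)) f 𝒟 W L u k x b)
    (hb' : LX (Cm (p + d)) f 𝒟 W L u k' x b') :
    ∃ (G : Vx V q ≃L[ℂ] Vx V q) (c : Vx V q),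
      IsPeriodChange Q' (ext (π k.1 (f x))) (ext (π k'.1 (f x))) G ∧
      ∀ᶠ z in 𝓝 x, f z = f x → b' z = G (b z) + c := by
  have hcl : ∀ D ∈ 𝒟, IsClosed D := fun D hD => (hP D hD).1
  obtain ⟨hW, hxD, β, ℓ, hβ, hℓ, h⟩ := hb
  obtain ⟨hW', -, β', ℓ', hβ', hℓ', h'⟩ := hb'
  have hyS : f x ∉ S := (hu.cover _).2 ⟨_, hW⟩
  obtain ⟨G, c, hGc, hev⟩ := hA.change k.1 k'.1 x (hA.mem _ _ _ hβ) (hA.mem _ _ _ hβ') β β' hβ hβ'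
  -- the units are proportional on the fibre
  have hcpt : IsCompact (f ⁻¹' {f x}) := hfib.proper {f x} isCompact_singleton
    (singleton_subset_iff.2 hyS)
  have h1 : ∀ j, ∃ s : ℂ, s ≠ 0 ∧ ∀ z, f z = f x → (∀ D ∈ 𝒟, z ∉ D) →
      u k'.2 j z = s * u k.2 j z := by
    intro j
    have e₀ : Cm (p + d) ≃L[ℂ] (Cm p × Cm d) := ContinuousLinearEquiv.ofFinrankEq (by simp)
    exact H969.TL.unit_unique (d := d) (fun x => hf x) e₀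
      (fun z hz => hfib.submersive z (by rw [hz]; exact hyS)) (hfib.connected _ hyS).isPreconnected
      hcpt hP (fun D hD => hnot D hD _ hyS) (H969.TL.IsUnitOn.at (hu.unit k'.2 j) hW')
      (H969.TL.IsUnitOn.at (hu.unit k.2 j) hW)
  choose s hs0 hs using h1
  have h2 : ∀ j, ∀ᶠ z in 𝓝 x, f z = f x → ℓ' j z - ℓ j z = ℓ' j x - ℓ j x := by
    intro j
    have k1 : ∀ᶠ z in 𝓝[{z | f z = f x}] x,
        Complex.exp (ℓ' j z - ℓ j z) = Complex.exp (ℓ' j x - ℓ j x) := by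
      refine eventually_nhdsWithin_iff.2 ?_
      have hk : ∀ z, Complex.exp (ℓ j z) = u k.2 j z → Complex.exp (ℓ' j z) = u k'.2 j z →
          f z = f x → (∀ D ∈ 𝒟, z ∉ D) → Complex.exp (ℓ' j z - ℓ j z) = s j := by
        intro z e1 e2 e3 e4
        rw [Complex.exp_sub, div_eq_iff (Complex.exp_ne_zero _), e1, e2, hs j z e3 e4]
      filter_upwards [(hℓ j).2, (hℓ' j).2, offD_open hcl hxD] with z z1 z2 z3 z4
      rw [hk z z1 z2 z4 z3, hk x (hℓ j).2.self_of_nhds (hℓ' j).2.self_of_nhds rfl hxD]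
    exact eventually_nhdsWithin_iff.1 (log_sub
      ((hℓ' j).1.continuousAt.tendsto.mono_left nhdsWithin_le_nhds)
      ((hℓ j).1.continuousAt.tendsto.mono_left nhdsWithin_le_nhds) k1)
  refine ⟨extG G, mkx c (WithLp.toLp 2 fun j => ℓ' j x - ℓ j x), hpc _ _ _ hGc, ?_⟩
  filter_upwards [hev, Filter.eventually_all.2 h2] with z z1 z2 hz
  rw [h, h', hG]
  have e1 := z1 hz
  have e2 : ∀ j, ℓ' j z = ℓ j z + (ℓ' j x - ℓ j x) := fun j => by rw [← z2 j hz]; ring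
  rw [e1]
  have e3 : (fun j => ℓ' j z) = (fun j => ℓ j z) + fun j => (ℓ' j x - ℓ j x) := funext e2
  rw [e3]
  rfl

end Vale.Agent.P281.H68.UL
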